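import Mathlib
import Vale.Agent.P015.Segments

/-!
# Prime-free disks on every segment and bounded components of Gaussian primes in strips
-/

namespace Vale.Agent.Results.P015.BlockedStrips

/-- (i) For every radius `r` there is a length `L` such that every segment of length `L`, of any
position and slope, contains the centre of a disk of radius `r` free of Gaussian primes.
(ii) A path of Gaussian primes with steps at most `D` lying in a strip of half-width `w` has
endpoints at distance at most `L(D, w)`, uniformly in the strip. (iii) In particular no infinite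
path with bounded steps stays within bounded distance of any line. (iv) The same holds in a
horn around any line, of one unbounded width function. -/
theorem result :
    (∀ r : ℝ, ∃ L : ℝ, 0 < L ∧ ∀ a u : ℂ, ‖u‖ = 1 →
      ∃ s ∈ Set.Icc 0 L, ∀ z : GaussianInt,
        ‖(z : ℂ) - (a + (s : ℂ) * u)‖ ≤ r → ¬ Prime z) ∧
    (∀ D w : ℝ, ∃ L : ℝ, ∀ a u : ℂ, ‖u‖ = 1 →
      ∀ (n : ℕ) (z : ℕ → GaussianInt), (∀ i ≤ n, Prime (z i)) →
        (∀ i < n, ‖(z (i + 1) : ℂ) - (z i : ℂ)‖ ≤ D) →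
        (∀ i ≤ n, |(((z i : ℂ) - a) * (starRingEnd ℂ) u).im| ≤ w) →
        ‖(z n : ℂ) - (z 0 : ℂ)‖ ≤ L) ∧
    (∀ (D w : ℝ) (a u : ℂ), ‖u‖ = 1 →
      ¬ ∃ z : ℕ → GaussianInt, Function.Injective z ∧ (∀ i, Prime (z i)) ∧
        (∀ i, ‖(z (i + 1) : ℂ) - (z i : ℂ)‖ ≤ D) ∧
        ∀ i, |(((z i : ℂ) - a) * (starRingEnd ℂ) u).im| ≤ w) ∧
    (∀ D : ℝ, ∃ W : ℝ → ℝ, Monotone W ∧ Filter.Tendsto W Filter.atTop Filter.atTop ∧
      ∀ a u : ℂ, ‖u‖ = 1 → ¬ ∃ z : ℕ → GaussianInt, Function.Injective z ∧ (∀ i, Prime (z i)) ∧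
        (∀ i, ‖(z (i + 1) : ℂ) - (z i : ℂ)‖ ≤ D) ∧
        ∀ i, |(((z i : ℂ) - a) * (starRingEnd ℂ) u).im| ≤
          W |(((z i : ℂ) - a) * (starRingEnd ℂ) u).re|) := by
  refine ⟨Vale.Agent.P015.exists_free_center, Vale.Agent.P015.strip_path_bound, ?_,
    Vale.Agent.P015.horn_bound⟩
  rintro D w a u hu ⟨z, hinj, hp, hstep, hstrip⟩
  obtain ⟨L, hL⟩ := Vale.Agent.P015.strip_path_bound D w
  have hb : ∀ n, ‖(z n : ℂ) - (z 0 : ℂ)‖ ≤ L := fun n =>
    hL a u hu n z (fun i _ => hp i) (fun i _ => hstep i) (fun i _ => hstrip i)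
  set B : ℤ := ⌈L + ‖(z 0 : ℂ)‖⌉ with hB
  have hbound : ∀ n, |(z n).re| ≤ B ∧ |(z n).im| ≤ B := by
    intro n
    have h1 : ‖(z n : ℂ)‖ ≤ L + ‖(z 0 : ℂ)‖ := by
      have := norm_le_norm_add_norm_sub' (z n : ℂ) (z 0 : ℂ)
      linarith [hb n]
    have h2 := h1.trans (Int.le_ceil _)
    constructor
    · rw [← Int.cast_le (R := ℝ)]; push_cast
      rw [GaussianInt.intCast_re]
      exact (Complex.abs_re_le_norm _).trans h2
    · rw [← Int.cast_le (R := ℝ)]; push_cast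
      rw [GaussianInt.intCast_im]
      exact (Complex.abs_im_le_norm _).trans h2
  have hfin : (Set.range fun n => ((z n).re, (z n).im)).Finite := by
    refine ((Set.finite_Icc (-B) B).prod (Set.finite_Icc (-B) B)).subset ?_
    rintro _ ⟨n, rfl⟩
    exact ⟨Set.mem_Icc.2 (abs_le.1 (hbound n).1), Set.mem_Icc.2 (abs_le.1 (hbound n).2)⟩
  refine Set.infinite_range_of_injective (fun m n h => hinj ?_) hfin
  simp only [Prod.mk.injEq] at h
  exact Zsqrtd.ext h.1 h.2

end Vale.Agent.Results.P015.BlockedStrips
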